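import Crest.Agent.R276.DivVal8_858

/-!
# Row 262, VAL (helper40), part 1: the fundamental identity `∑ e f = n` for valuation rings

`L / K` finite separable, `A` a discrete valuation ring of `K`.

* `Ov A W` : `W` lies over `A`; `fdeg A W` : the residue degree; `fdeg_eq` : computed by places;
* `sum_ef` : finitely many `W` lie over `A`, all discrete, and `∑ e f = [L : K]`;
* `sum_ef'` : the same for an indexed family of places.
-/

set_option autoImplicit false
set_option linter.style.haveILetI false

noncomputable section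

namespace Crest.Agent.X262.Val40

open IsLocalRing IsDedekindDomain Crest.Agent.R276.DivVal_858

variable {K L : Type*} [Field K] [Field L] [Algebra K L]

/-- `W` lies over `A` -/
def Ov (A : ValuationSubring K) (W : ValuationSubring L) : Prop :=
  ∀ x : K, algebraMap K L x ∈ W ↔ x ∈ A

variable {A : ValuationSubring K} {W : ValuationSubring L}

theorem ov_iff : Ov A W ↔ W.comap (algebraMap K L) = A :=
  ⟨fun h => by ext x; exact h x, fun h x => by rw [← h]; rfl⟩

theorem lt_one_iff_inv {F : Type*} [Field F] (V : ValuationSubring F) {x : F} (hx : x ≠ 0) :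
    V.valuation x < 1 ↔ x⁻¹ ∉ V := by
  rw [← V.valuation_le_one_iff, map_inv₀, not_le,
    one_lt_inv₀ (zero_lt_iff.2 (by simpa using hx))]

theorem Ov.lt_iff (h : Ov A W) (x : K) :
    W.valuation (algebraMap K L x) < 1 ↔ A.valuation x < 1 := by
  by_cases hx : x = 0
  · simp [hx]
  · rw [lt_one_iff_inv W (by simpa using hx), lt_one_iff_inv A hx, ← map_inv₀, h]

theorem Ov.le_iff (h : Ov A W) (x y : K) :
    W.valuation (algebraMap K L x) ≤ W.valuation (algebraMap K L y) ↔
      A.valuation x ≤ A.valuation y := by
  by_cases hy : y = 0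
  · simp [hy]
  · have h1 : 0 < A.valuation y := zero_lt_iff.2 (by simpa using hy)
    have h2 : 0 < W.valuation (algebraMap K L y) := zero_lt_iff.2 (by simpa using hy)
    rw [← div_le_one₀ h1, ← div_le_one₀ h2, ← map_div₀, ← map_div₀, ← map_div₀,
      ValuationSubring.valuation_le_one_iff, ValuationSubring.valuation_le_one_iff, h]

theorem Ov.eq_iff (h : Ov A W) (x y : K) :
    W.valuation (algebraMap K L x) = W.valuation (algebraMap K L y) ↔
      A.valuation x = A.valuation y := by
  rw [le_antisymm_iff, le_antisymm_iff, h.le_iff, h.le_iff]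

theorem Ov.eq_one_iff (h : Ov A W) (x : K) :
    W.valuation (algebraMap K L x) = 1 ↔ A.valuation x = 1 := by
  simpa using h.eq_iff x 1

theorem Ov.ne_top (h : Ov A W) (hA : A ≠ ⊤) : W ≠ ⊤ := by
  rintro rfl
  exact hA (eq_top_iff.2 fun x _ => (h x).1 (ValuationSubring.mem_top _))

/-- the inclusion of valuation rings -/
def Ov.incl (h : Ov A W) : A →+* W :=
  ((algebraMap K L).comp A.subtype).codRestrict W fun x => (h x).2 x.2

@[simp] theorem Ov.coe_incl (h : Ov A W) (x : A) : (h.incl x : L) = algebraMap K L x := rfl

instance (h : Ov A W) : IsLocalHom h.incl where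
  map_nonunit x hx := by
    rw [ValuationSubring.valuation_eq_one_iff] at hx ⊢
    exact (h.eq_one_iff x).1 hx

open Classical in
/-- the residue degree -/
def fdeg (A : ValuationSubring K) (W : ValuationSubring L) : ℕ :=
  if h : Ov A W then
    letI := (ResidueField.map h.incl).toAlgebra
    Module.finrank (ResidueField A) (ResidueField W)
  else 0

/-- a surjective place identifies the residue field -/
def resEquiv {F E : Type*} [Field F] [Field E] (V : ValuationSubring F) (p : V →+* E)
    (hp : Function.Surjective p) : ResidueField V ≃+* E :=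
  haveI : IsLocalHom p := IsLocalHom.of_surjective p hp
  RingEquiv.ofBijective (ResidueField.lift p) ⟨RingHom.injective _, fun y => by
    obtain ⟨x, rfl⟩ := hp y
    exact ⟨residue V x, ResidueField.lift_residue_apply p x⟩⟩

@[simp] theorem resEquiv_residue {F E : Type*} [Field F] [Field E] (V : ValuationSubring F)
    (p : V →+* E) (hp : Function.Surjective p) (x : V) : resEquiv V p hp (residue V x) = p x :=
  haveI : IsLocalHom p := IsLocalHom.of_surjective p hp
  ResidueField.lift_residue_apply p x

/-- the residue degree, computed by surjective places -/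
theorem fdeg_eq (h : Ov A W) {E₀ E₁ : Type*} [Field E₀] [Field E₁] [Algebra E₀ E₁]
    (p : A →+* E₀) (hp : Function.Surjective p) (q : W →+* E₁) (hq : Function.Surjective q)
    (hc : ∀ x : A, q (h.incl x) = algebraMap E₀ E₁ (p x)) :
    fdeg A W = Module.finrank E₀ E₁ := by
  rw [fdeg, dif_pos h]
  letI := (ResidueField.map h.incl).toAlgebra
  refine Algebra.finrank_eq_of_equiv_equiv (resEquiv A p hp) (resEquiv W q hq) ?_
  ext x
  obtain ⟨x, rfl⟩ := residue_surjective x
  change algebraMap E₀ E₁ (resEquiv A p hp (residue A x)) =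
    resEquiv W q hq (ResidueField.map h.incl (residue A x))
  rw [ResidueField.map_residue, resEquiv_residue, resEquiv_residue, hc]

theorem IsUnif.max_eq {F : Type*} [Field F] {V : ValuationSubring F} {τ : V}
    (h : IsUnif V (τ : F)) : maximalIdeal V = Ideal.span {τ} := by
  ext y
  rw [ValuationSubring.valuation_lt_one_iff, Ideal.mem_span_singleton]
  refine ⟨fun hy => ?_, fun ⟨c, hc⟩ => ?_⟩
  · have h1 := h.max y hy
    have h2 : (y : F) / τ ∈ V := by
      rw [← V.valuation_le_one_iff, map_div₀]
      exact div_le_one_of_le₀ h1 zero_le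
    exact ⟨⟨_, h2⟩, Subtype.ext (by simp [mul_div_cancel₀ _ h.ne])⟩
  · rw [hc, MulMemClass.coe_mul, map_mul]
    exact (mul_le_of_le_one_right' (V.valuation_le_one c)).trans_lt h.lt

theorem IsUnif.mem {F : Type*} [Field F] {V : ValuationSubring F} {τ : F}
    (h : IsUnif V τ) : τ ∈ V := (V.valuation_le_one_iff τ).1 h.lt.le

theorem IsUnif.ne_top {F : Type*} [Field F] {V : ValuationSubring F} {τ : F}
    (h : IsUnif V τ) : V ≠ ⊤ := by
  rintro rfl
  exact (lt_one_iff_inv _ h.ne).1 h.lt (ValuationSubring.mem_top _)

section Main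

variable [FiniteDimensional K L] [Algebra.IsSeparable K L] [IsDiscreteValuationRing A]

/-- the valuation rings over `A` are the localisations of the integral closure -/
theorem exists_hos (h : Ov A W) :
    letI := IsIntegralClosure.isDedekindDomain A K L (integralClosure A L)
    letI := IsIntegralClosure.isFractionRing_of_finite_extension A K L (integralClosure A L)
    ∃ v : HeightOneSpectrum (integralClosure A L), v.valuationSubringAtPrime L = W := by
  letI := IsIntegralClosure.isDedekindDomain A K L (integralClosure A L)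
  letI := IsIntegralClosure.isFractionRing_of_finite_extension A K L (integralClosure A L)
  obtain ⟨t, ht⟩ := exists_isUnif A
  have hB : ∀ b : integralClosure A L, (b : L) ∈ W := fun b => by
    letI : Algebra A W := h.incl.toAlgebra
    haveI : IsScalarTower A W L := IsScalarTower.of_algebraMap_eq fun _ => rfl
    obtain ⟨y, hy⟩ := IsIntegrallyClosed.isIntegral_iff.mp (IsIntegral.tower_top (A := W) b.2)
    rw [← hy]
    exact y.2
  let j : integralClosure A L →+* W := (integralClosure A L).val.toRingHom.codRestrict W hB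
  let q : Ideal (integralClosure A L) := (maximalIdeal W).comap j
  have hq : ∀ b, b ∈ q ↔ W.valuation (b : L) < 1 := fun b =>
    ValuationSubring.valuation_lt_one_iff W (j b)
  have hne : q ≠ ⊥ := fun h0 => by
    have h1 : algebraMap A (integralClosure A L) ⟨t, IsUnif.mem ht⟩ ∈ q :=
      (hq _).2 ((h.lt_iff t).2 ht.lt)
    rw [h0, Ideal.mem_bot] at h1
    have h2 : algebraMap K L t = 0 := congrArg Subtype.val h1
    exact ht.ne (by simpa using h2)
  refine ⟨⟨q, inferInstance, hne⟩, ValuationSubring.eq_of_le_of_ne_top _ ?_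
    (h.ne_top (IsUnif.ne_top ht))⟩
  rintro x ⟨a, s, hs, rfl⟩
  have h1 : W.valuation (s : L) = 1 :=
    le_antisymm ((W.valuation_le_one_iff _).2 (hB s)) (not_lt.1 fun h2 => hs ((hq s).2 h2))
  refine mul_mem (hB a) ?_
  rw [← W.valuation_le_one_iff]
  change W.valuation ((s : L)⁻¹) ≤ 1
  rw [map_inv₀, h1, inv_one]

omit [IsDiscreteValuationRing A] in
/-- membership in the centre -/
theorem hos_lt [IsDedekindDomain A] :
    letI := IsIntegralClosure.isDedekindDomain A K L (integralClosure A L)
    letI := IsIntegralClosure.isFractionRing_of_finite_extension A K L (integralClosure A L)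
    ∀ (v : HeightOneSpectrum (integralClosure A L)) (b : integralClosure A L),
      (v.valuationSubringAtPrime L).valuation (b : L) < 1 ↔ b ∈ v.asIdeal := by
  letI := IsIntegralClosure.isDedekindDomain A K L (integralClosure A L)
  letI := IsIntegralClosure.isFractionRing_of_finite_extension A K L (integralClosure A L)
  intro v b
  rw [v.valuationSubringAtPrime_eq_valuationSubring,
    ← (Valuation.isEquiv_valuation_valuationSubring (v.valuation L)).lt_one_iff_lt_one]
  exact v.valuation_lt_one_iff_mem b

theorem hos_over :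
    letI := IsIntegralClosure.isDedekindDomain A K L (integralClosure A L)
    ∀ v : HeightOneSpectrum (integralClosure A L), v.asIdeal.LiesOver (maximalIdeal A) := by
  letI := IsIntegralClosure.isDedekindDomain A K L (integralClosure A L)
  intro v
  haveI := v.isMaximal
  exact ⟨(IsLocalRing.eq_maximalIdeal (Ideal.isMaximal_comap_of_isIntegral_of_isMaximal
    (R := A) v.asIdeal)).symm⟩

theorem hos_ov :
    letI := IsIntegralClosure.isDedekindDomain A K L (integralClosure A L)
    letI := IsIntegralClosure.isFractionRing_of_finite_extension A K L (integralClosure A L)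
    ∀ v : HeightOneSpectrum (integralClosure A L), Ov A (v.valuationSubringAtPrime L) := by
  letI := IsIntegralClosure.isDedekindDomain A K L (integralClosure A L)
  letI := IsIntegralClosure.isFractionRing_of_finite_extension A K L (integralClosure A L)
  intro v x
  have h1 : ∀ a : A, algebraMap K L a ∈ v.valuationSubringAtPrime L := fun a =>
    (algebraMap (integralClosure A L) (v.valuationSubringAtPrime L)
      (algebraMap A (integralClosure A L) a)).2
  refine ⟨fun hx => ?_, fun hx => h1 ⟨x, hx⟩⟩
  by_contra hc
  have hx0 : x ≠ 0 := fun h => hc (h ▸ A.zero_mem)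
  have h2 : x⁻¹ ∈ A := (A.mem_or_inv_mem x).resolve_left hc
  have h3 : (⟨x⁻¹, h2⟩ : A) ∈ maximalIdeal A := by
    rw [ValuationSubring.valuation_lt_one_iff, lt_one_iff_inv A (inv_ne_zero hx0), inv_inv]
    exact hc
  haveI := hos_over (K := K) (L := L) (A := A) v
  rw [Ideal.mem_of_liesOver v.asIdeal (maximalIdeal A), ← hos_lt (K := K)] at h3
  change (v.valuationSubringAtPrime L).valuation (algebraMap K L x⁻¹) < 1 at h3
  rw [lt_one_iff_inv _ (by simpa using hx0), map_inv₀, inv_inv] at h3
  exact h3 hx

theorem Ov.dvr (h : Ov A W) : IsDiscreteValuationRing W := by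
  letI := IsIntegralClosure.isDedekindDomain A K L (integralClosure A L)
  letI := IsIntegralClosure.isFractionRing_of_finite_extension A K L (integralClosure A L)
  obtain ⟨v, rfl⟩ := exists_hos h
  exact IsLocalization.AtPrime.isDiscreteValuationRing_of_dedekind_domain _ v.ne_bot _

end Main

/-- `x` has order `e` at the discrete valuation ring `V` -/
def IsOrd {F : Type*} [Field F] (V : ValuationSubring F) (x : F) (e : ℕ) : Prop :=
  ∃ τ, IsUnif V τ ∧ V.valuation x = V.valuation τ ^ e

theorem IsUnif.val_eq {F : Type*} [Field F] {V : ValuationSubring F} {τ τ' : F} (h : IsUnif V τ)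
    (h' : IsUnif V τ') : V.valuation τ = V.valuation τ' :=
  le_antisymm (h'.max _ h.lt) (h.max _ h'.lt)

theorem IsOrd.val_eq {F : Type*} [Field F] {V : ValuationSubring F} {x τ : F} {e : ℕ}
    (h : IsOrd V x e) (hτ : IsUnif V τ) : V.valuation x = V.valuation τ ^ e := by
  obtain ⟨τ', h1, h2⟩ := h
  rw [h2, IsUnif.val_eq h1 hτ]

theorem IsOrd.unique {F : Type*} [Field F] {V : ValuationSubring F} {x : F} {e e' : ℕ}
    (h : IsOrd V x e) (h' : IsOrd V x e') : e = e' := by
  obtain ⟨τ, h1, h2⟩ := h
  have h3 : 0 < V.valuation τ := zero_lt_iff.2 (by simpa using h1.ne)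
  exact (pow_right_strictAnti₀ h3 h1.lt).injective (h2.symm.trans (h'.val_eq h1))

theorem exists_isOrd {F : Type*} [Field F] (V : ValuationSubring F) [IsDiscreteValuationRing V]
    {x : F} (hx : x ∈ V) (h0 : x ≠ 0) : ∃ e, IsOrd V x e := by
  obtain ⟨τ, hτ⟩ := exists_isUnif V
  have hirr : Irreducible (⟨τ, IsUnif.mem hτ⟩ : V) :=
    (IsDiscreteValuationRing.irreducible_iff_uniformizer _).2 (IsUnif.max_eq hτ)
  obtain ⟨n, u, hu⟩ := IsDiscreteValuationRing.eq_unit_mul_pow_irreducible
    (x := (⟨x, hx⟩ : V)) (fun h => h0 (congrArg Subtype.val h)) hirr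
  refine ⟨n, τ, hτ, ?_⟩
  have h1 : x = (u : V) * τ ^ n := congrArg Subtype.val hu
  rw [h1, map_mul, map_pow, V.valuation_unit, one_mul]

section Main2

variable [FiniteDimensional K L] [Algebra.IsSeparable K L] [IsDiscreteValuationRing A]

theorem hos_ef {t : K} (ht : IsUnif A t) :
    letI := IsIntegralClosure.isDedekindDomain A K L (integralClosure A L)
    letI := IsIntegralClosure.isFractionRing_of_finite_extension A K L (integralClosure A L)
    ∀ v : HeightOneSpectrum (integralClosure A L),
      IsOrd (v.valuationSubringAtPrime L) (algebraMap K L t) (v.asIdeal.ramificationIdx A) ∧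
      fdeg A (v.valuationSubringAtPrime L) = v.asIdeal.inertiaDeg A := by
  letI := IsIntegralClosure.isDedekindDomain A K L (integralClosure A L)
  letI := IsIntegralClosure.isFractionRing_of_finite_extension A K L (integralClosure A L)
  intro v
  haveI := hos_over (K := K) (L := L) (A := A) v
  haveI := v.isMaximal
  constructor
  · let b : integralClosure A L := algebraMap A _ ⟨t, IsUnif.mem ht⟩
    have hb : (b : L) = algebraMap K L t := rfl
    have hb0 : b ≠ 0 := fun h => ht.ne (by simpa [h] using hb.symm)
    have hm : (maximalIdeal A).map (algebraMap A (integralClosure A L)) = Ideal.span {b} := by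
      rw [IsUnif.max_eq (τ := ⟨t, IsUnif.mem ht⟩) ht, Ideal.map_span, Set.image_singleton]
    obtain ⟨π, hπ⟩ := v.valuation_exists_uniformizer L
    have he := Valuation.isEquiv_valuation_valuationSubring (v.valuation L)
    have hπ0 : π ≠ 0 := by
      rintro rfl
      exact WithZero.exp_ne_zero (hπ.symm.trans (map_zero _))
    rw [v.valuationSubringAtPrime_eq_valuationSubring]
    refine ⟨π, ⟨he.lt_one_iff_lt_one.1 ?_, hπ0, fun y hy => (he y π).1 ?_⟩, ?_⟩
    · rw [hπ, ← WithZero.exp_zero, WithZero.exp_lt_exp]
      norm_num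
    · rw [hπ]
      have h1 := he.lt_one_iff_lt_one.2 hy
      by_cases h0 : v.valuation L y = 0
      · simp [h0]
      · rw [← WithZero.exp_log h0, ← WithZero.exp_zero, WithZero.exp_lt_exp] at h1
        rw [← WithZero.exp_log h0, WithZero.exp_le_exp]
        omega
    · rw [← map_pow, ← he.eq_iff, map_pow, hπ, ← hb]
      change v.valuation L (algebraMap (integralClosure A L) L b) = _
      rw [v.valuation_of_algebraMap, v.intValuation_eq_exp_neg_multiplicity hb0,
        Ideal.IsDedekindDomain.ramificationIdx_eq_multiplicity (maximalIdeal A) v.asIdeal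
          (by rw [hm]; simpa using hb0), hm, ← WithZero.exp_nsmul]
      simp
  · rw [Ideal.inertiaDeg_eq_of_isMaximal (maximalIdeal A) v.asIdeal]
    letI := Ideal.Quotient.field (maximalIdeal A)
    letI := Ideal.Quotient.field v.asIdeal
    let e := IsLocalization.AtPrime.equivQuotMaximalIdeal v.asIdeal (v.valuationSubringAtPrime L)
    refine fdeg_eq (hos_ov v) (Ideal.Quotient.mk _) Ideal.Quotient.mk_surjective
      (e.symm.toRingHom.comp (Ideal.Quotient.mk _))
      (e.symm.surjective.comp Ideal.Quotient.mk_surjective) fun x => ?_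
    change e.symm _ = Ideal.Quotient.mk _ (algebraMap A (integralClosure A L) x)
    rw [RingEquiv.symm_apply_eq, IsLocalization.AtPrime.equivQuotMaximalIdeal_apply_mk]
    rfl

variable (L A) in
theorem finite_ov : {W : ValuationSubring L | Ov A W}.Finite := by
  letI := IsIntegralClosure.isDedekindDomain A K L (integralClosure A L)
  letI := IsIntegralClosure.isFractionRing_of_finite_extension A K L (integralClosure A L)
  haveI := IsIntegralClosure.finite A K L (integralClosure A L)
  have h1 : {v : HeightOneSpectrum (integralClosure A L) | True}.Finite := by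
    refine Set.Finite.of_finite_image (f := fun v => v.asIdeal)
      ((Algebra.QuasiFinite.finite_primesOver (R := A) (S := integralClosure A L)
        (maximalIdeal A)).subset ?_) fun _ _ _ _ h => HeightOneSpectrum.ext h
    rintro _ ⟨v, -, rfl⟩
    exact ⟨v.isPrime, hos_over (K := K) v⟩
  refine (h1.image fun v => v.valuationSubringAtPrime L).subset fun W hW => ?_
  obtain ⟨v, hv⟩ := exists_hos (show Ov A W from hW)
  exact ⟨v, trivial, hv⟩

/-- **the fundamental identity** -/
theorem sum_ef {t : K} (ht : IsUnif A t) {ι : Type*} [Fintype ι] (W : ι → ValuationSubring L)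
    (hinj : Function.Injective W) (hW : ∀ V, Ov A V ↔ V ∈ Set.range W) (e : ι → ℕ)
    (he : ∀ i, IsOrd (W i) (algebraMap K L t) (e i)) :
    ∑ i, e i * fdeg A (W i) = Module.finrank K L := by
  letI := IsIntegralClosure.isDedekindDomain A K L (integralClosure A L)
  letI := IsIntegralClosure.isFractionRing_of_finite_extension A K L (integralClosure A L)
  haveI := IsIntegralClosure.finite A K L (integralClosure A L)
  haveI : Module.IsTorsionFree A L := by
    rw [Module.isTorsionFree_iff_algebraMap_injective]
    exact (algebraMap K L).injective.comp Subtype.val_injective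
  haveI := IsIntegralClosure.module_free A K L (integralClosure A L)
  haveI : Finite ((maximalIdeal A).primesOver (integralClosure A L)) :=
    Algebra.QuasiFinite.finite_primesOver _
  letI := Fintype.ofFinite ((maximalIdeal A).primesOver (integralClosure A L))
  rw [← IsIntegralClosure.rank A K L (integralClosure A L),
    ← Ideal.sum_ramification_inertia_eq_finrank (maximalIdeal A)]
  choose v hv using fun i => exists_hos ((hW _).2 ⟨i, rfl⟩)
  refine Fintype.sum_bijective (fun i => ⟨(v i).asIdeal, (v i).isPrime, hos_over (K := K) _⟩)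
    ⟨fun i j h => hinj ?_, fun q => ?_⟩ _ _ fun i => ?_
  · rw [← hv, ← hv, HeightOneSpectrum.ext (congrArg Subtype.val h)]
  · haveI := q.2.1
    haveI := q.2.2
    let u : HeightOneSpectrum (integralClosure A L) := ⟨q.1, q.2.1,
      Ideal.ne_bot_of_liesOver_of_ne_bot (IsDiscreteValuationRing.not_a_field A) q.1⟩
    obtain ⟨i, hi⟩ := (hW _).1 (hos_ov u)
    refine ⟨i, Subtype.ext (Ideal.ext fun b => ?_)⟩
    change b ∈ (v i).asIdeal ↔ b ∈ u.asIdeal
    rw [← hos_lt (K := K), ← hos_lt (K := K), hv, hi]
  · obtain ⟨h1, h2⟩ := hos_ef ht (v i)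
    rw [hv] at h1 h2
    rw [h2, (he i).unique h1]

/-- the fundamental identity for a family of surjective places -/
theorem sum_ef' {t : K} (ht : IsUnif A t) {ι : Type*} [Fintype ι] (W : ι → ValuationSubring L)
    (hinj : Function.Injective W) (hW : ∀ V, Ov A V ↔ V ∈ Set.range W) (e : ι → ℕ)
    (he : ∀ i, IsOrd (W i) (algebraMap K L t) (e i)) {E₀ : Type*} [Field E₀] (E : ι → Type*)
    [∀ i, Field (E i)] [∀ i, Algebra E₀ (E i)] (p : A →+* E₀) (hp : Function.Surjective p)
    (q : ∀ i, W i →+* E i) (hq : ∀ i, Function.Surjective (q i))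
    (hc : ∀ i (x : A) (h : algebraMap K L x ∈ W i), q i ⟨_, h⟩ = algebraMap E₀ (E i) (p x)) :
    ∑ i, e i * Module.finrank E₀ (E i) = Module.finrank K L := by
  rw [← sum_ef ht W hinj hW e he]
  exact Finset.sum_congr rfl fun i _ => by
    rw [fdeg_eq ((hW _).2 ⟨i, rfl⟩) p hp (q i) (hq i) fun x => hc i x _]

end Main2

end Crest.Agent.X262.Val40
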