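import Crest.Agent.X262.Geo.Val
import Crest.Agent.R276.DivVal13_858
import Crest.Agent.X262.Val40.Sum

/-!
# Row 262, VAL (helper40), part 2: divisorial valuations in field extensions

`α : K →ₐ[k] L` an embedding of finitely generated fields, `W` a valuation ring of `L`.

* `dn α W` : restriction, `rf α W` : the residue field extension, `ram α W` : ramification index;
* `dvs_dn`, `dvs_up`, `dim_rf`, `od_pb` : divisorial valuations and coefficients of pull-backs;
* `fin_up`, `sum_ram` : `∑ e f = deg α`;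
* `finsum_pull` : **projection formula** for sums over divisorial valuations (also for `deg α = 0`).
-/

set_option autoImplicit false
set_option linter.style.haveILetI false

noncomputable section

namespace Crest.Agent.X262.Val40

open Crest.Agent.X277 Crest.Agent.X277.BD Crest.Agent.X277.Pst Crest.Agent.X277.BD.Cyc
open Crest.Agent.X277.Neg (nv nv_triv IsNv isNv_nv)
open Crest.Agent.X262.Geo
open Crest.Agent.R276.DivVal_858
open WithZero

/-- sums over the fibres of a map -/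
theorem finsum_fib {X Y R : Type*} [CommRing R] [IsDomain R] (π : X → Y) (w : X → R) (F : Y → R)
    {n : R} (hn : n ≠ 0) (h : ∀ y, F y ≠ 0 → {x | π x = y}.Finite ∧
      ∑ᶠ (x) (_ : π x = y), w x = n) : ∑ᶠ x, w x * F (π x) = n * ∑ᶠ y, F y := by
  classical
  by_cases hF : (Function.support F).Finite
  · have h1 : (⋃ y ∈ Function.support F, {x | π x = y}).Finite :=
      hF.biUnion fun y hy => (h y hy).1
    have h2 : ∀ x, x ∈ h1.toFinset ↔ F (π x) ≠ 0 := fun x => by simp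
    rw [finsum_eq_sum_of_support_subset (s := h1.toFinset) _
        fun x hx => (h2 x).2 (right_ne_zero_of_mul hx),
      finsum_eq_sum F hF, Finset.mul_sum,
      ← Finset.sum_fiberwise_of_maps_to (s := h1.toFinset) (t := hF.toFinset) (g := π)
        fun x hx => by simpa using (h2 x).1 hx]
    refine Finset.sum_congr rfl fun y hy => ?_
    have hy' : F y ≠ 0 := by simpa using hy
    obtain ⟨h3, h4⟩ := h y hy'
    have h5 : h1.toFinset.filter (fun x => π x = y) = h3.toFinset := by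
      ext x
      rw [Finset.mem_filter, h2, Set.Finite.mem_toFinset, Set.mem_ofPred_eq]
      exact ⟨fun h => h.2, fun h => ⟨h ▸ hy', h⟩⟩
    rw [h5, ← h4, show (∑ᶠ (x) (_ : π x = y), w x) = ∑ x ∈ h3.toFinset, w x from
      finsum_mem_eq_finite_toFinset_sum w h3, Finset.sum_mul]
    exact Finset.sum_congr rfl fun x hx => by rw [show π x = y by simpa using hx]
  · rw [finsum_of_infinite_support hF, mul_zero]
    refine finsum_of_infinite_support fun h1 => hF ((h1.image π).subset fun y hy => ?_)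
    by_contra hc
    refine hn ((h y hy).2.symm.trans (finsum_eq_zero_of_forall_eq_zero fun x => ?_))
    rw [finsum_eq_if]
    split_ifs with hx
    · exact by_contra fun h2 => hc ⟨x, mul_ne_zero h2 (hx ▸ hy), hx⟩
    · rfl

variable {k K L : Type} [Field k] [Field K] [Field L] [Algebra k K] [Algebra k L]

/-- restriction of a valuation ring -/
abbrev dn (α : K →ₐ[k] L) (W : RZ k L) : RZ k K := cm (α : K →+* L) (alg_ov α) W

variable {α : K →ₐ[k] L} {W : RZ k L} {V : RZ k K} {a : BD k K} {x y : K}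

theorem mem_dn : x ∈ (dn α W).1 ↔ α x ∈ W.1 := Iff.rfl

theorem v_dn_le : (dn α W).v x ≤ (dn α W).v y ↔ W.v (α x) ≤ W.v (α y) := v_cm_le_iff _ _

theorem v_dn_eq : (dn α W).v x = (dn α W).v y ↔ W.v (α x) = W.v (α y) := v_cm_eq_iff _ _

theorem v_dn_lt : (dn α W).v x < (dn α W).v y ↔ W.v (α x) < W.v (α y) := v_cm_lt_iff _ _

theorem v_dn_eq_one : (dn α W).v x = 1 ↔ W.v (α x) = 1 := by
  simpa using v_dn_eq (α := α) (W := W) (x := x) (y := 1)

theorem v_dn_lt_one : (dn α W).v x < 1 ↔ W.v (α x) < 1 := by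
  simpa using v_dn_lt (α := α) (W := W) (x := x) (y := 1)

theorem dn_dn {M : Type} [Field M] [Algebra k M] (γ : L →ₐ[k] M) (α : K →ₐ[k] L) (U : RZ k M) :
    dn α (dn γ U) = dn (γ.comp α) U := rfl

theorem dn_id (V : RZ k K) : dn (AlgHom.id k K) V = V := rfl

theorem dn_surjective (α : K →ₐ[k] L) : Function.Surjective (dn α) := cm_surjective α

theorem ov_dn (α : K →ₐ[k] L) (W : RZ k L) :
    letI := α.toRingHom.toAlgebra
    Ov (dn α W).1 W.1 := fun _ => Iff.rfl

/-- the residue field extension -/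
def rf (α : K →ₐ[k] L) (W : RZ k L) : Rf (dn α W) →ₐ[k] Rf W :=
  letI := α.toRingHom.toAlgebra
  { IsLocalRing.ResidueField.map (ov_dn α W).incl with
    commutes' := fun c => congrArg (IsLocalRing.residue W.1) (Subtype.ext (α.commutes c)) }

theorem rf_r (α : K →ₐ[k] L) (W : RZ k L) (x : K) :
    rf α W ((plV (dn α W)).r x) = (plV W).r (α x) := by
  by_cases hx : x ∈ (dn α W).1
  · rw [Pl.r_eq _ hx, Pl.r_eq (plV W) (mem_dn.1 hx)]
    rfl
  · rw [show (plV (dn α W)).r x = 0 from dif_neg hx,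
      show (plV W).r (α x) = 0 from dif_neg (mem_dn.not.1 hx), map_zero]

theorem exists_r (V : RZ k K) (z : Rf V) : ∃ x ∈ V.1, (plV V).r x = z := by
  obtain ⟨x, rfl⟩ := surj_plV V z
  exact ⟨x, x.2, Pl.r_coe _ _⟩

theorem deg_rf (α : K →ₐ[k] L) (W : RZ k L) :
    letI := α.toRingHom.toAlgebra
    deg (rf α W) = fdeg (dn α W).1 W.1 := by
  letI := α.toRingHom.toAlgebra
  rw [fdeg, dif_pos (ov_dn α W)]
  rfl

theorem resInd_up {ι : Type*} {y : ι → K} (h : ResInd k (dn α W).1 y) :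
    ResInd k W.1 fun i => α (y i) := by
  refine ⟨h.1, fun q hq => ?_⟩
  rw [← MvPolynomial.comp_aeval_apply]
  exact v_dn_eq_one.1 (h.2 q hq)

theorem ne_top_of_dn (h : (dn α W).1 ≠ ⊤) : W.1 ≠ ⊤ := fun h0 =>
  h (top_unique fun _ _ => mem_dn.2 (h0 ▸ trivial))

theorem val_of_top (h : V.1 = ⊤) (a : BD k K) : a.val V = 1 := by
  rw [← v_gen]
  exact Cns.un_iff_val.1 ⟨a.gen_ne V, h ▸ trivial, h ▸ trivial⟩

theorem dn_ne_top (h : (pb α a).val W ≠ 1) : (dn α W).1 ≠ ⊤ := fun h0 =>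
  h (val_mp_eq_one.2 (val_of_top h0 a))

theorem dvs_up (hd : dim k L = dim k K) (h : Dvs (dn α W)) : Dvs W := by
  obtain ⟨-, h0, y, h2⟩ := isDiv_iff.1 h
  rw [Dvs, dm_eq, hd]
  exact isDiv_iff.2 ⟨W.2, ne_top_of_dn h0, fun i => α (y i), resInd_up h2⟩

open Classical in
/-- the ramification index -/
def ram (α : K →ₐ[k] L) (W : RZ k L) : ℕ :=
  if h : ∃ e : ℕ, ∀ x, nv W (α x) = nv (dn α W) x ^ e then h.choose else 0

theorem isUnif_of_nv {v : Valuation K ℤᵐ⁰} (h : IsNv V v) {t : K} (ht : v t = exp (-1)) :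
    IsUnif V.1 t := by
  refine ⟨h.lt_one.1 ?_, ?_, fun y hy => (h.le_iff y t).1 ?_⟩
  · rw [ht, ← exp_zero, exp_lt_exp]
    norm_num
  · rintro rfl
    exact exp_ne_zero (ht.symm.trans (map_zero _))
  · have h1 := h.lt_one.2 hy
    by_cases h0 : v y = 0
    · simp [h0]
    · rw [← exp_log h0, ← exp_zero, exp_lt_exp] at h1
      rw [ht, ← exp_log h0, exp_le_exp]
      omega

theorem exists_ram {v : Valuation K ℤᵐ⁰} {w : Valuation L ℤᵐ⁰} (hv : IsNv (dn α W) v)
    (hw : IsNv W w) : ∃ e : ℕ, 0 < e ∧ ∀ x, w (α x) = v x ^ e := by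
  obtain ⟨t, ht⟩ := hv.unif
  have h0 := isUnif_of_nv hv ht
  have h1 : w (α t) ≠ 0 := by simpa using h0.ne
  have h2 : w (α t) < 1 := hw.lt_one.2 (v_dn_lt_one.1 h0.lt)
  rw [← exp_log h1, ← exp_zero, exp_lt_exp] at h2
  obtain ⟨e, he⟩ : ∃ e : ℕ, log (w (α t)) = -e := ⟨(-log (w (α t))).toNat, by omega⟩
  refine ⟨e, by omega, fun x => ?_⟩
  by_cases hx : x = 0
  · rw [hx, map_zero, map_zero, map_zero, zero_pow (by omega)]
  have h3 : v x ≠ 0 := by simpa using hx
  have h4 : v x = v (t ^ (-log (v x))) := by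
    rw [map_zpow₀, ht, ← exp_zsmul]
    simp [exp_log h3]
  rw [hw.eq_iff.2 (v_dn_eq.1 (hv.eq_iff.1 h4)), map_zpow₀, map_zpow₀, ← exp_log h1, he,
    ← exp_zsmul, ← exp_log h3, ← exp_nsmul, log_exp]
  congr 1
  simp [mul_comm]

variable [CharZero k] [Algebra.EssFiniteType k K] [Algebra.EssFiniteType k L]

theorem dvs_dn (h : Dvs W) (h0 : (dn α W).1 ≠ ⊤) : Dvs (dn α W) := by
  let := α.toRingHom.toAlgebra
  have : IsScalarTower k K L := IsScalarTower.of_algebraMap_eq fun c => (α.commutes c).symm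
  exact (restrict_of_ne_top trdeg_eq_dim trdeg_eq_dim h h0).2.2.1

theorem dn_ne_top' (hd : dim k L = dim k K) (h : Dvs W) : (dn α W).1 ≠ ⊤ := fun h0 => by
  let := α.toRingHom.toAlgebra
  have : IsScalarTower k K L := IsScalarTower.of_algebraMap_eq fun c => (α.commutes c).symm
  have h1 := (restrict_top trdeg_eq_dim trdeg_eq_dim h fun c =>
    mem_dn.1 (h0 ▸ ValuationSubring.mem_top c)).1
  omega

theorem dvs_dn_iff (hd : dim k L = dim k K) : Dvs (dn α W) ↔ Dvs W :=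
  ⟨dvs_up hd, fun h => dvs_dn h (dn_ne_top' hd h)⟩

/-- the residue field extension has the same relative dimension -/
theorem dim_rf (h : Dvs W) (h0 : (dn α W).1 ≠ ⊤) :
    dim k (Rf W) + dim k K = dim k (Rf (dn α W)) + dim k L := by
  rw [dim_Rf' h, dim_Rf' (dvs_dn h h0)]
  omega

theorem deg_rf_pos_iff (h : Dvs W) (h0 : (dn α W).1 ≠ ⊤) : 0 < deg (rf α W) ↔ 0 < deg α := by
  have := essFT_Rf h
  have := essFT_Rf (dvs_dn h h0)
  have := dim_rf h h0
  rw [deg_pos_iff, deg_pos_iff]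
  omega

theorem ram_spec (h : Dvs W) (h0 : (dn α W).1 ≠ ⊤) :
    0 < ram α W ∧ ∀ x, nv W (α x) = nv (dn α W) x ^ ram α W := by
  obtain ⟨e, h1, h2⟩ := exists_ram (isNv_nv (dvs_dn h h0)) (isNv_nv h)
  have h3 : ∀ x, nv W (α x) = nv (dn α W) x ^ ram α W := by
    rw [ram, dif_pos ⟨e, h2⟩]
    exact Exists.choose_spec (⟨e, h2⟩ : ∃ e : ℕ, ∀ x, nv W (α x) = nv (dn α W) x ^ e)
  refine ⟨Nat.pos_of_ne_zero fun h4 => ?_, h3⟩
  simpa [h4] using h3 0

theorem ram_pos (h : Dvs W) (h0 : (dn α W).1 ≠ ⊤) : 0 < ram α W := (ram_spec h h0).1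

theorem nv_up (h : Dvs W) (h0 : (dn α W).1 ≠ ⊤) (x : K) :
    nv W (α x) = nv (dn α W) x ^ ram α W := (ram_spec h h0).2 x

/-- the ramification index is read off from one element -/
theorem ram_eq (h : Dvs W) (h0 : (dn α W).1 ≠ ⊤) {t : K} (ht : nv (dn α W) t = exp (-1)) {e : ℕ}
    (he : nv W (α t) = exp (-e : ℤ)) : ram α W = e := by
  rw [nv_up h h0, ht, ← exp_nsmul, exp_inj] at he
  simpa using he

theorem ram_eq_one (h : Dvs W) {t : K} (ht : nv W (α t) = exp (-1)) : ram α W = 1 := by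
  have h0 : (dn α W).1 ≠ ⊤ := fun h0 => by
    have h1 := isUnif_of_nv (isNv_nv h) ht
    refine (lt_one_iff_inv _ h1.ne).1 h1.lt ?_
    rw [← map_inv₀, ← mem_dn, h0]
    trivial
  have h1 : nv (dn α W) t ≠ 0 := fun h2 => by
    rw [nv_up h h0, h2, zero_pow (ram_pos h h0).ne'] at ht
    exact exp_ne_zero ht.symm
  rw [nv_up h h0, ← exp_log h1, ← exp_nsmul, exp_inj, nsmul_eq_mul] at ht
  have h2 : (ram α W : ℤ) ∣ 1 := ⟨-log (nv (dn α W) t), by rw [mul_neg, ht, neg_neg]⟩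
  exact Nat.dvd_one.1 (Int.natCast_dvd_natCast.1 h2)

/-- coefficients of a pull-back -/
theorem od_pb (h : Dvs W) (h0 : (dn α W).1 ≠ ⊤) (a : BD k K) :
    od W (pb α a) = ram α W * od (dn α W) a := by
  rw [od_of_gen (a := pb α a) h (val_mp_gen a W).symm, od_of_gen (dvs_dn h h0) (v_gen a _)]
  change log (nv W (α _)) = _
  rw [nv_up h h0, log_pow, nsmul_eq_mul]

omit [Algebra.EssFiniteType k K] in
theorem od_pb_top (h : Dvs W) (h0 : (dn α W).1 = ⊤) (a : BD k K) : od W (pb α a) = 0 :=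
  (od_eq_zero h).2 (not_not.1 fun h1 => dn_ne_top h1 h0)

omit [Algebra.EssFiniteType k K] in
theorem dn_ne_top_of_od (h : Dvs W) (h0 : od W (pb α a) ≠ 0) : (dn α W).1 ≠ ⊤ :=
  fun h1 => h0 (od_pb_top h h1 a)

/-- **`∑ e f = n`** -/
theorem sum_ram (hd : dim k L = dim k K) (hV : Dvs V) : {W | dn α W = V}.Finite ∧
    ∑ᶠ (W) (_ : dn α W = V), ram α W * deg (rf α W) = deg α := by
  letI := α.toRingHom.toAlgebra
  haveI : IsScalarTower k K L := IsScalarTower.of_algebraMap_eq fun c => (α.commutes c).symm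
  haveI : FiniteDimensional K L := Module.finite_of_finrank_pos ((deg_pos_iff α).2 hd)
  haveI : CharZero K := charZero_of_injective_algebraMap (algebraMap k K).injective
  haveI := dvr_of_isDiv (Slope.dm_eq_trdeg k K).symm hV
  have h1 : ∀ W : RZ k L, dn α W = V ↔ Ov V.1 W.1 := fun W =>
    ⟨fun h => h ▸ ov_dn α W, fun h => Subtype.ext (ov_iff.1 h)⟩
  have h2 : {W | dn α W = V}.Finite :=
    Set.Finite.of_finite_image (f := Subtype.val) ((finite_ov L V.1).subset (by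
      rintro _ ⟨W, hW, rfl⟩
      exact (h1 W).1 hW)) Subtype.val_injective.injOn
  refine ⟨h2, ?_⟩
  obtain ⟨t, ht⟩ := nv_unif hV
  rw [show (∑ᶠ (W) (_ : dn α W = V), ram α W * deg (rf α W)) = ∑ W ∈ h2.toFinset, _ from
    finsum_mem_eq_finite_toFinset_sum _ h2, ← Finset.sum_coe_sort]
  have h3 : ∀ W : h2.toFinset, dn α W.1 = V := fun W => h2.mem_toFinset.1 W.2
  refine Eq.trans (Finset.sum_congr rfl fun W _ => ?_) (sum_ef (isUnif_of_nv (isNv_nv hV) ht)
    (fun W : h2.toFinset => W.1.1) (fun _ _ h => Subtype.ext (Subtype.ext h)) (fun U => ?_)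
    (fun W => ram α W.1) fun W => ?_)
  · rw [deg_rf, h3]
  · refine ⟨fun h => ⟨⟨⟨U, fun c => ?_⟩, ?_⟩, rfl⟩, fun ⟨W, h⟩ => h ▸ (h1 _).1 (h3 W)⟩
    · rw [IsScalarTower.algebraMap_apply k K L]
      exact (h _).2 (V.2 c)
    · simpa using (h1 _).2 h
  · have h4 : Dvs W.1 := dvs_up hd (h3 W ▸ hV)
    obtain ⟨τ, hτ⟩ := nv_unif h4
    refine ⟨τ, isUnif_of_nv (isNv_nv h4) hτ, ?_⟩
    rw [← map_pow, ← nv_eq_iff h4, map_pow, hτ]
    change nv W.1 (α t) = _
    rw [nv_up h4 (dn_ne_top' hd h4), h3, ht]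

theorem fin_up (hd : dim k L = dim k K) (hV : Dvs V) : {W | dn α W = V}.Finite := (sum_ram hd hV).1

/-- **projection formula** -/
theorem finsum_pull {R : Type*} [CommRing R] [IsDomain R] [CharZero R] (α : K →ₐ[k] L)
    (a : BD k K) (g : RZ k K → R) (g' : RZ k L → R)
    (h : ∀ W, Dvs W → Dvs (dn α W) → od (dn α W) a ≠ 0 → g' W = deg (rf α W) * g (dn α W)) :
    ∑ᶠ (W) (_ : Dvs W), (od W (pb α a) : R) * g' W =
      deg α * ∑ᶠ (V) (_ : Dvs V), (od V a : R) * g V := by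
  classical
  have h1 : ∀ W, Dvs W → (h0 : (dn α W).1 ≠ ⊤) → (od W (pb α a) : R) * g' W =
      (ram α W * deg (rf α W) : ℕ) * ((od (dn α W) a : R) * g (dn α W)) := fun W hW h0 => by
    rw [od_pb hW h0]
    by_cases h2 : od (dn α W) a = 0
    · simp [h2]
    · rw [h W hW (dvs_dn hW h0) h2]
      push_cast
      ring
  rcases Nat.eq_zero_or_pos (deg α) with hα | hα
  · rw [hα, Nat.cast_zero, zero_mul]
    refine finsum_eq_zero_of_forall_eq_zero fun W => ?_
    rw [finsum_eq_if]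
    split_ifs with hW
    swap
    · rfl
    by_cases h0 : (dn α W).1 = ⊤
    · simp [od_pb_top hW h0]
    · have h2 := (deg_rf_pos_iff hW h0).not.2 (by omega)
      rw [h1 W hW h0, show deg (rf α W) = 0 by omega]
      simp
  have hd := (deg_pos_iff α).1 hα
  rw [← finsum_fib (dn α) (fun W => ((ram α W * deg (rf α W) : ℕ) : R)) _
    (Nat.cast_ne_zero.2 hα.ne') fun V hV => ?_]
  · refine finsum_congr fun W => ?_
    by_cases hW : Dvs W
    · rw [finsum_eq_if, finsum_eq_if, if_pos hW, if_pos ((dvs_dn_iff hd).2 hW),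
        h1 W hW (dn_ne_top' hd hW)]
    · rw [finsum_eq_if, finsum_eq_if, if_neg hW, if_neg ((dvs_dn_iff hd).not.2 hW), mul_zero]
  · have h2 : Dvs V := by
      by_contra h2
      exact hV (by rw [finsum_eq_if, if_neg h2])
    obtain ⟨h3, h4⟩ := sum_ram (α := α) hd h2
    refine ⟨h3, ?_⟩
    rw [← h4]
    exact ((finsum_mem_eq_finite_toFinset_sum _ h3).trans (Nat.cast_sum _ _).symm).trans
      (congrArg _ (finsum_mem_eq_finite_toFinset_sum _ h3).symm)

end Crest.Agent.X262.Val40
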